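import Crest.Agent.R169.PtDefs
import Mathlib
import Crest.Agent.R169.RingDefs

-- ▼ part R169/Pt/Basic
section

/-!
# Row 169, F5: points of `Proj T`, basic calculus (helper785)
-/

set_option autoImplicit false

namespace Crest.Agent.R169

variable {k Q : Type} [Field k] [Field Q] [Algebra k Q]

namespace Pt

variable {D : TData k Q} {P : ℤ → Submodule k Q}

theorem F_mono (D : TData k Q) {m n : ℤ} (h : m ≤ n) : D.F m ≤ D.F n := by
  obtain ⟨d, rfl⟩ := Int.le.dest h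
  induction d with
  | zero => simp
  | succ d ih =>
    refine le_trans (ih (by omega)) ?_
    have := D.lat.mono (m + d)
    have e : m + d + 1 = m + ((d + 1 : ℕ) : ℤ) := by push_cast; ring
    rwa [e] at this

theorem one_memF (D : TData k Q) {m : ℤ} (hm : 0 ≤ m) : (1 : Q) ∈ D.F m := by
  refine F_mono D hm ?_
  rw [D.F_zero]
  exact Submodule.mem_span_singleton_self 1

theorem smul_one_memF (D : TData k Q) {m : ℤ} (hm : 0 ≤ m) (c : k) : algebraMap k Q c ∈ D.F m := by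
  rw [Algebra.algebraMap_eq_smul_one]
  exact Submodule.smul_mem _ _ (one_memF D hm)

theorem pow_memF (D : TData k Q) {i : ℤ} {f : Q} (hf : f ∈ D.F i) (n : ℕ) :
    f ^ n ∈ D.F (n * i) := by
  induction n with
  | zero => simpa using one_memF D le_rfl
  | succ n ih =>
    rw [pow_succ]
    have := D.mul_mem _ _ _ ih _ hf
    have e : (n : ℤ) * i + i = ((n + 1 : ℕ) : ℤ) * i := by push_cast; ring
    rwa [e] at this


theorem IsGId.mono (hP : IsGId D P) {m n : ℤ} (h : m ≤ n) : P m ≤ P n := by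
  intro f hf
  have := hP.mul (n - m) m 1 (one_memF D (by omega)) f hf
  rw [one_mul] at this
  have e : n - m + m = n := by ring
  rwa [e] at this

theorem IsGId.pow (hP : IsGId D P) {i : ℤ} {f : Q} (hf : f ∈ P i) (n : ℕ) (hn : 1 ≤ n) :
    f ^ n ∈ P (n * i) := by
  obtain ⟨n, rfl⟩ := Nat.exists_eq_add_of_le hn
  have := hP.mul _ _ _ (pow_memF D (hP.le _ hf) n) _ hf
  rw [← pow_succ] at this
  have e : (n : ℤ) * i + i = ((1 + n : ℕ) : ℤ) * i := by push_cast; ring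
  rw [e] at this
  rwa [add_comm 1 n] at this ⊢

theorem IsPt.of_pow (hP : IsPt D P) {i : ℤ} {f : Q} (hf : f ∈ D.F i) (n : ℕ) (hn : 1 ≤ n)
    (h : f ^ n ∈ P (n * i)) : f ∈ P i := by
  induction n with
  | zero => omega
  | succ n ih =>
    rcases Nat.eq_zero_or_pos n with rfl | hn'
    · simpa using h
    · rw [pow_succ] at h
      have e : ((n + 1 : ℕ) : ℤ) * i = n * i + i := by push_cast; ring
      rw [e] at h
      rcases hP.prime _ _ _ (pow_memF D hf n) _ hf h with h1 | h1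
      · exact ih hn' h1
      · exact h1

/-- a graded prime of a point does not contain all of `1, u, v` -/
theorem IsPt.not_all (hP : IsPt D P) (h1 : (1 : Q) ∈ P 1) (hu : D.u ∈ P 1) (hv : D.v ∈ P 1) :
    False := by
  obtain ⟨m₁, hm₁⟩ := D.lat.gen
  obtain ⟨m₀, hm₀⟩ := hP.hilb
  obtain ⟨t, htF, htP, -⟩ := hm₀ (max m₀ m₁ + 1) (by omega)
  obtain ⟨a, ha, b, hb, c, hc, rfl⟩ := hm₁ (max m₀ m₁) (by omega) t htF
  apply htP
  have e1 : a ∈ P (max m₀ m₁ + 1) := by
    have := hP.mul _ _ a ha _ h1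
    rwa [mul_one] at this
  have e2 : D.u • b ∈ P (max m₀ m₁ + 1) := by
    have := hP.mul _ _ b hb _ hu
    rwa [mul_comm] at this
  have e3 : D.v • c ∈ P (max m₀ m₁ + 1) := by
    have := hP.mul _ _ c hc _ hv
    rwa [mul_comm] at this
  exact Submodule.add_mem _ (Submodule.add_mem _ e1 e2) e3

/-- graded automorphism of `T`, dehomogenised -/
structure GrAut (D : TData k Q) where
  φ : ℤ → (Q ≃ₗ[k] Q)
  map_mul : ∀ i j f g, φ (i + j) (f * g) = φ i f * φ j g
  memF : ∀ m f, φ m f ∈ D.F m ↔ f ∈ D.F m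

def GrAut.comp (a b : GrAut D) : GrAut D where
  φ m := (b.φ m).trans (a.φ m)
  map_mul i j f g := by
    simp [a.map_mul, b.map_mul]
  memF m f := by
    simp [a.memF, b.memF]

theorem IsPt.comap (hP : IsPt D P) (a : GrAut D) :
    IsPt D (fun m => (P m).comap (a.φ m).toLinearMap) where
  le m f hf := by
    rw [← a.memF]
    exact hP.le _ hf
  mul i j f hf g hg := by
    show a.φ (i + j) (f * g) ∈ P (i + j)
    rw [a.map_mul]
    exact hP.mul _ _ _ ((a.memF _ _).2 hf) _ hg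
  prime i j f hf g hg h := by
    have h' : a.φ (i + j) (f * g) ∈ P (i + j) := h
    rw [a.map_mul] at h'
    exact hP.prime _ _ _ ((a.memF _ _).2 hf) _ ((a.memF _ _).2 hg) h'
  hilb := by
    obtain ⟨m₀, hm₀⟩ := hP.hilb
    refine ⟨m₀, fun m hm => ?_⟩
    obtain ⟨t, htF, htP, ht⟩ := hm₀ m hm
    refine ⟨(a.φ m).symm t, ?_, ?_, ?_⟩
    · rw [← a.memF]; simpa using htF
    · intro h
      apply htP
      have : a.φ m ((a.φ m).symm t) ∈ P m := h
      simpa using this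
    · intro f hf
      obtain ⟨c, hc⟩ := ht (a.φ m f) ((a.memF _ _).2 hf)
      refine ⟨c, ?_⟩
      show a.φ m (f - c • (a.φ m).symm t) ∈ P m
      simpa using hc

theorem PtRegular.of_comap (a : GrAut D)
    (h : PtRegular D (fun m => (P m).comap (a.φ m).toLinearMap)) : PtRegular D P := by
  obtain ⟨d, e, l, x, y, s, hx, hy, hs, hsP, H⟩ := h
  refine ⟨d, e, l, a.φ d x, a.φ e y, a.φ l s, hx, hy, (a.memF _ _).2 hs, hsP, ?_⟩
  intro m f hf
  have hf' : (a.φ m).symm f ∈ (P m).comap (a.φ m).toLinearMap := by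
    show a.φ m ((a.φ m).symm f) ∈ P m
    simpa using hf
  obtain ⟨g, hg, h, hh, E⟩ := H m _ hf'
  refine ⟨a.φ (m + l - d) g, (a.memF _ _).2 hg, a.φ (m + l - e) h, (a.memF _ _).2 hh, ?_⟩
  have E2 := congrArg (a.φ (m + l)) E
  rw [map_add] at E2
  have e1 : m + l = l + m := by ring
  have e2 : l + m = d + (m + l - d) := by ring
  have e3 : l + m = e + (m + l - e) := by ring
  have h1 : a.φ (m + l) (s * (a.φ m).symm f) = a.φ l s * f := by
    rw [e1, a.map_mul]; simp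
  have h2 : a.φ (m + l) (x * g) = a.φ d x * a.φ (m + l - d) g := by
    conv_lhs => rw [e1, e2]
    rw [a.map_mul]
  have h3 : a.φ (m + l) (y * h) = a.φ e y * a.φ (m + l - e) h := by
    conv_lhs => rw [e1, e3]
    rw [a.map_mul]
  rw [h1, h2, h3] at E2
  exact E2

end Pt

end Crest.Agent.R169
end

-- ▼ part R169/Pt/Local
section

/-!
# Row 169, F5: local generation of the maximal ideals of the Fermat cover `O` (helper785)
-/

set_option autoImplicit false

namespace Crest.Agent.R169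

namespace Pt

section sat

variable {A : Type} [CommRing A]

/-- `I` saturated at the prime `𝔪` -/
def satI (𝔪 : Ideal A) [h𝔪 : 𝔪.IsPrime] (I : Ideal A) : Ideal A where
  carrier := {x | ∃ s, s ∉ 𝔪 ∧ s * x ∈ I}
  add_mem' := by
    rintro x y ⟨s, hs, hsx⟩ ⟨t, ht, hty⟩
    refine ⟨s * t, fun h => (h𝔪.mem_or_mem h).elim hs ht, ?_⟩
    have : s * t * (x + y) = t * (s * x) + s * (t * y) := by ring
    rw [this]
    exact I.add_mem (I.mul_mem_left _ hsx) (I.mul_mem_left _ hty)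
  zero_mem' := ⟨1, fun h => h𝔪.ne_top ((Ideal.eq_top_iff_one _).2 h), by simp⟩
  smul_mem' := by
    rintro a x ⟨s, hs, hsx⟩
    refine ⟨s, hs, ?_⟩
    have : s * (a • x) = a * (s * x) := by simp only [smul_eq_mul]; ring
    rw [this]
    exact I.mul_mem_left _ hsx


theorem le_satI (𝔪 : Ideal A) [h𝔪 : 𝔪.IsPrime] (I : Ideal A) {x : A} (hx : x ∈ I) :
    x ∈ satI 𝔪 I :=
  ⟨1, fun h => h𝔪.ne_top ((Ideal.eq_top_iff_one _).2 h), by simpa using hx⟩

theorem satI_of_mul {𝔪 : Ideal A} [h𝔪 : 𝔪.IsPrime] {I : Ideal A} {t x : A} (ht : t ∉ 𝔪)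
    (h : t * x ∈ satI 𝔪 I) : x ∈ satI 𝔪 I := by
  obtain ⟨s, hs, hsx⟩ := h
  exact ⟨s * t, fun h => (h𝔪.mem_or_mem h).elim hs ht, by rwa [mul_assoc]⟩

end sat

theorem fin5_cases : ∀ i j : Fin 5,
    j = i ∨ j = i + 1 ∨ j = i + 2 ∨ j = i + 3 ∨ j = i + 4 := by decide
theorem fin5_add₁ : ∀ j : Fin 5, j + 3 + 1 = j + 4 := by decide
theorem fin5_add₂ : ∀ j : Fin 5, j + 3 + 3 = j + 1 := by decide
theorem fin5_add₃ : ∀ j : Fin 5, j + 2 + 1 = j + 3 := by decide
theorem fin5_add₄ : ∀ j : Fin 5, j + 2 + 3 = j := by decide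
theorem fin5_add₅ : ∀ j : Fin 5, j + 4 + 1 = j := by decide
theorem fin5_add₆ : ∀ j : Fin 5, j + 4 + 3 = j + 2 := by decide

/-- the zero pattern of a point -/
theorem exists_zero_pattern {k : Type} [Field k] (c : Fin 5 → k)
    (hc : ∀ j, c j ^ 7 * c (j + 1) ^ 7 = 1 + c (j + 3) ^ 7) :
    ∃ j : Fin 5, c (j + 2) ≠ 0 ∧ c (j + 3) ≠ 0 ∧ c (j + 4) ≠ 0 := by
  have h3 : ∀ i, c i = 0 → c (i + 3) ≠ 0 := by
    intro i hi h
    have := hc i
    rw [hi, h] at this
    norm_num at this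
  have h2 : ∀ i, c i = 0 → c (i + 2) ≠ 0 := by
    intro i hi h
    have := hc (i + 4)
    rw [fin5_add₅, fin5_add₆, hi, h] at this
    norm_num at this
  have e : ∀ i, c i = 0 → c (i + 2) ≠ 0 ∧ c (i + 3) ≠ 0 := fun i hi => ⟨h2 i hi, h3 i hi⟩
  have e0 := e 0
  have e1 := e 1
  have e2 := e 2
  have e3 := e 3
  have e4 := e 4
  simp only [show (0 : Fin 5) + 2 = 2 from rfl, show (0 : Fin 5) + 3 = 3 from rfl,
    show (1 : Fin 5) + 2 = 3 from rfl, show (1 : Fin 5) + 3 = 4 from rfl,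
    show (2 : Fin 5) + 2 = 4 from rfl, show (2 : Fin 5) + 3 = 0 from rfl,
    show (3 : Fin 5) + 2 = 0 from rfl, show (3 : Fin 5) + 3 = 1 from rfl,
    show (4 : Fin 5) + 2 = 1 from rfl, show (4 : Fin 5) + 3 = 2 from rfl] at e0 e1 e2 e3 e4
  by_cases h0 : c 0 = 0
  · by_cases h1 : c 1 = 0
    · exact ⟨0, (e0 h0).1, (e0 h0).2, (e1 h1).2⟩
    · -- zero set ⊆ {0, 4}
      refine ⟨4, ?_, ?_, ?_⟩
      · exact h1
      · exact (e0 h0).1
      · exact (e0 h0).2
  · by_cases h1 : c 1 = 0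
    · -- zero set ⊆ {1, 2}
      exact ⟨1, (e1 h1).1, (e1 h1).2, h0⟩
    · by_cases h2' : c 2 = 0
      · exact ⟨2, (e2 h2').1, h0, h1⟩
      · exact ⟨3, h0, h1, h2'⟩

variable {k A : Type} [Field k] [CommRing A] [Algebra k A]

theorem const_mem {𝔪 : Ideal A} [h𝔪 : 𝔪.IsPrime] {c : k} (h : algebraMap k A c ∈ 𝔪) : c = 0 := by
  by_contra hc
  apply h𝔪.ne_top
  rw [Ideal.eq_top_iff_one]
  have := 𝔪.mul_mem_left (algebraMap k A c⁻¹) h
  rwa [← map_mul, inv_mul_cancel₀ hc, map_one] at this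

theorem cofactor_not_mem {𝔪 : Ideal A} [h𝔪 : 𝔪.IsPrime] (h7 : (7 : k) ≠ 0) {z : A} {c : k}
    (hc : c ≠ 0) (hz : z - algebraMap k A c ∈ 𝔪) :
    z ^ 6 + z ^ 5 * algebraMap k A c + z ^ 4 * algebraMap k A c ^ 2 +
      z ^ 3 * algebraMap k A c ^ 3 + z ^ 2 * algebraMap k A c ^ 4 + z * algebraMap k A c ^ 5 +
      algebraMap k A c ^ 6 ∉ 𝔪 := by
  intro h
  set C := algebraMap k A c with hC
  have h2 : (z - C) * (z ^ 5 + 2 * z ^ 4 * C + 3 * z ^ 3 * C ^ 2 + 4 * z ^ 2 * C ^ 3 +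
      5 * z * C ^ 4 + 6 * C ^ 5) ∈ 𝔪 := 𝔪.mul_mem_right _ hz
  have h3 := 𝔪.sub_mem h h2
  have h4 : algebraMap k A (7 * c ^ 6) ∈ 𝔪 := by
    have e : algebraMap k A (7 * c ^ 6) = (z ^ 6 + z ^ 5 * C + z ^ 4 * C ^ 2 +
      z ^ 3 * C ^ 3 + z ^ 2 * C ^ 4 + z * C ^ 5 + C ^ 6) - (z - C) * (z ^ 5 + 2 * z ^ 4 * C +
      3 * z ^ 3 * C ^ 2 + 4 * z ^ 2 * C ^ 3 + 5 * z * C ^ 4 + 6 * C ^ 5) := by
      rw [map_mul, map_pow, ← hC, map_ofNat]
      ring
    rw [e]; exact h3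
  have h5 := const_mem h4
  rcases mul_eq_zero.1 h5 with h6 | h6
  · exact h7 h6
  · exact hc (pow_eq_zero_iff (by norm_num) |>.1 h6)

theorem seven_factor (z C : A) : z ^ 7 - C ^ 7 = (z ^ 6 + z ^ 5 * C + z ^ 4 * C ^ 2 +
      z ^ 3 * C ^ 3 + z ^ 2 * C ^ 4 + z * C ^ 5 + C ^ 6) * (z - C) := by ring

/-- from `z^7 - c^7` back to `z - c` at a nonzero `c` -/
theorem sat_root {𝔪 : Ideal A} [h𝔪 : 𝔪.IsPrime] (h7 : (7 : k) ≠ 0) {J : Ideal A} {z : A} {c : k}
    (hc : c ≠ 0) (hz : z - algebraMap k A c ∈ 𝔪)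
    (h : z ^ 7 - algebraMap k A c ^ 7 ∈ satI 𝔪 J) : z - algebraMap k A c ∈ satI 𝔪 J := by
  rw [seven_factor] at h
  exact satI_of_mul (cofactor_not_mem h7 hc hz) h

theorem pow_sub_mem {J : Ideal A} {z C : A} (h : z - C ∈ J) : z ^ 7 - C ^ 7 ∈ J := by
  rw [seven_factor]
  exact J.mul_mem_left _ h

theorem rel_const {𝔪 : Ideal A} [h𝔪 : 𝔪.IsPrime] (z : Fin 5 → A) (c : Fin 5 → k)
    (hz : ∀ j, z j ^ 7 * z (j + 1) ^ 7 = 1 + z (j + 3) ^ 7)
    (hm : ∀ j, z j - algebraMap k A (c j) ∈ 𝔪) :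
    ∀ j, c j ^ 7 * c (j + 1) ^ 7 = 1 + c (j + 3) ^ 7 := by
  intro j
  have h1 := pow_sub_mem (hm j)
  have h2 := pow_sub_mem (hm (j + 1))
  have h3 := pow_sub_mem (hm (j + 3))
  have h4 : algebraMap k A (c j ^ 7 * c (j + 1) ^ 7 - (1 + c (j + 3) ^ 7)) ∈ 𝔪 := by
    have e : algebraMap k A (c j ^ 7 * c (j + 1) ^ 7 - (1 + c (j + 3) ^ 7)) =
        (z (j + 3) ^ 7 - algebraMap k A (c (j + 3)) ^ 7)
        - z (j + 1) ^ 7 * (z j ^ 7 - algebraMap k A (c j) ^ 7)
        - algebraMap k A (c j) ^ 7 * (z (j + 1) ^ 7 - algebraMap k A (c (j + 1)) ^ 7) := by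
      simp only [map_sub, map_add, map_mul, map_pow, map_one]
      linear_combination hz j
    rw [e]
    exact 𝔪.sub_mem (𝔪.sub_mem h3 (𝔪.mul_mem_left _ h1)) (𝔪.mul_mem_left _ h2)
  have h5 := const_mem h4
  linear_combination h5

/-- local generation by two of the `z_i - c_i` -/
theorem local_gen (𝔪 : Ideal A) [h𝔪 : 𝔪.IsPrime] (h7 : (7 : k) ≠ 0) (z : Fin 5 → A)
    (c : Fin 5 → k) (hz : ∀ j, z j ^ 7 * z (j + 1) ^ 7 = 1 + z (j + 3) ^ 7)
    (hm : ∀ j, z j - algebraMap k A (c j) ∈ 𝔪) :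
    ∃ i : Fin 5, ∃ s, s ∉ 𝔪 ∧ ∀ j, s * (z j - algebraMap k A (c j)) ∈
      Ideal.span {z i - algebraMap k A (c i), z (i + 1) - algebraMap k A (c (i + 1))} := by
  have hc := rel_const z c hz hm
  obtain ⟨i, hi2, hi3, hi4⟩ := exists_zero_pattern c hc
  refine ⟨i, ?_⟩
  set I := Ideal.span {z i - algebraMap k A (c i), z (i + 1) - algebraMap k A (c (i + 1))} with hI
  -- `z (i+3)` and its relatives are units at `𝔪`
  have hz3 : z (i + 3) ^ 7 ∉ 𝔪 := by
    intro h
    have h1 := h𝔪.mem_of_pow_mem _ h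
    have h2 := 𝔪.sub_mem h1 (hm (i + 3))
    rw [sub_sub_cancel] at h2
    exact hi3 (const_mem h2)
  have m0 : z i - algebraMap k A (c i) ∈ satI 𝔪 I :=
    le_satI _ _ (Ideal.subset_span (by simp))
  have m1 : z (i + 1) - algebraMap k A (c (i + 1)) ∈ satI 𝔪 I :=
    le_satI _ _ (Ideal.subset_span (by simp))
  have M0 := pow_sub_mem m0
  have M1 := pow_sub_mem m1
  have hcA : ∀ j, algebraMap k A (c j) ^ 7 * algebraMap k A (c (j + 1)) ^ 7 =
      1 + algebraMap k A (c (j + 3)) ^ 7 := by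
    intro j
    have := congrArg (algebraMap k A) (hc j)
    simpa only [map_mul, map_pow, map_add, map_one] using this
  have M3 : z (i + 3) ^ 7 - algebraMap k A (c (i + 3)) ^ 7 ∈ satI 𝔪 I := by
    have e : z (i + 3) ^ 7 - algebraMap k A (c (i + 3)) ^ 7 =
        z (i + 1) ^ 7 * (z i ^ 7 - algebraMap k A (c i) ^ 7)
        + algebraMap k A (c i) ^ 7 * (z (i + 1) ^ 7 - algebraMap k A (c (i + 1)) ^ 7) := by
      linear_combination -(hz i) + hcA i
    rw [e]
    exact Ideal.add_mem _ (Ideal.mul_mem_left _ _ M0) (Ideal.mul_mem_left _ _ M1)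
  have m3 := sat_root h7 hi3 (hm (i + 3)) M3
  have M4 : z (i + 4) ^ 7 - algebraMap k A (c (i + 4)) ^ 7 ∈ satI 𝔪 I := by
    refine satI_of_mul hz3 ?_
    have r := hz (i + 3)
    have rc := hcA (i + 3)
    rw [fin5_add₁, fin5_add₂] at r rc
    have e : z (i + 3) ^ 7 * (z (i + 4) ^ 7 - algebraMap k A (c (i + 4)) ^ 7) =
        (z (i + 1) ^ 7 - algebraMap k A (c (i + 1)) ^ 7)
        - algebraMap k A (c (i + 4)) ^ 7 * (z (i + 3) ^ 7 - algebraMap k A (c (i + 3)) ^ 7) := by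
      linear_combination r - rc
    rw [e]
    exact Ideal.sub_mem _ M1 (Ideal.mul_mem_left _ _ M3)
  have m4 := sat_root h7 hi4 (hm (i + 4)) M4
  have M2 : z (i + 2) ^ 7 - algebraMap k A (c (i + 2)) ^ 7 ∈ satI 𝔪 I := by
    refine satI_of_mul hz3 ?_
    have r := hz (i + 2)
    have rc := hcA (i + 2)
    rw [fin5_add₃, fin5_add₄] at r rc
    have e : z (i + 3) ^ 7 * (z (i + 2) ^ 7 - algebraMap k A (c (i + 2)) ^ 7) =
        (z i ^ 7 - algebraMap k A (c i) ^ 7)
        - algebraMap k A (c (i + 2)) ^ 7 * (z (i + 3) ^ 7 - algebraMap k A (c (i + 3)) ^ 7) := by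
      linear_combination r - rc
    rw [e]
    exact Ideal.sub_mem _ M0 (Ideal.mul_mem_left _ _ M3)
  have m2 := sat_root h7 hi2 (hm (i + 2)) M2
  have hall : ∀ j : Fin 5, z j - algebraMap k A (c j) ∈ satI 𝔪 I := by
    intro j
    rcases fin5_cases i j with rfl | rfl | rfl | rfl | rfl
    exacts [m0, m1, m2, m3, m4]
  choose s hs hsj using hall
  refine ⟨∏ j, s j, ?_, ?_⟩
  · intro h
    obtain ⟨j, -, hj⟩ := (Ideal.IsPrime.prod_mem_iff).1 h
    exact hs j hj
  · intro j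
    rw [← Finset.prod_erase_mul Finset.univ s (Finset.mem_univ j), mul_assoc]
    exact Ideal.mul_mem_left _ _ (hsj j)

end Pt

end Crest.Agent.R169
end

-- ▼ part R169/Pt/Chart
section

/-!
# Row 169, F5: the affine chart `X ≠ 0` (helper785)
-/

set_option autoImplicit false

namespace Crest.Agent.R169

namespace Pt

variable {k Q : Type} [Field k] [Field Q] [Algebra k Q]

/-- What is used of `T_7`. -/
structure Is7 (D : TData k Q) (z : Fin 5 → Q) : Prop where
  rel : ∀ j, z j ^ 7 * z (j + 1) ^ 7 = 1 + z (j + 3) ^ 7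
  F_eq : ∀ m, D.F m = Submodule.span k
    {q | ∃ b : Fin 5 → ℕ, (∀ i, Crest.R169.w i b ≤ m) ∧ q = ∏ i, z i ^ b i}
  hu : D.u = z 0 + z 3 + z 4
  hv : D.v = z 1 + z 2 + z 3

variable {D : TData k Q} {P : ℤ → Submodule k Q} {z : Fin 5 → Q}

theorem Is7.z_mem (h : Is7 D z) (j : Fin 5) : z j ∈ D.F 1 := by
  rw [h.F_eq]
  refine Submodule.subset_span ⟨Pi.single j 1, ?_, ?_⟩
  · intro i
    revert i j
    decide
  · rw [Finset.prod_eq_single j]
    · simp
    · intro b _ hb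
      simp [Pi.single_eq_of_ne hb]
    · simp

theorem IsPt.one_notMem (hP : IsPt D P) (h1 : (1 : Q) ∉ P 1) (m : ℤ) (hm : 0 ≤ m) :
    (1 : Q) ∉ P m := by
  intro h
  apply h1
  have h2 : (1 : Q) ∈ P (m + 1) := IsGId.mono hP.toIsGId (by omega) h
  have h3 := IsPt.of_pow hP (i := 1) (one_memF D (by norm_num)) ((m + 1).toNat) (by omega)
  apply h3
  rw [one_pow]
  have e : (((m + 1).toNat : ℕ) : ℤ) * 1 = m + 1 := by
    rw [mul_one]; exact Int.toNat_of_nonneg (by omega)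
  rwa [e]

/-- membership in `P` does not depend on the degree (chart `X ≠ 0`) -/
theorem IsPt.mem_of_mem (hP : IsPt D P) (h1 : (1 : Q) ∉ P 1) {m n : ℤ} {f : Q}
    (hf : f ∈ D.F m) (h : f ∈ P n) : f ∈ P m := by
  rcases le_total n m with hnm | hnm
  · exact IsGId.mono hP.toIsGId hnm h
  · have h2 : (1 : Q) * f ∈ P ((n - m) + m) := by
      rw [one_mul]
      have e : n - m + m = n := by ring
      rwa [e]
    rcases hP.prime _ _ _ (one_memF D (by omega)) _ hf h2 with h3 | h3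
    · exact absurd h3 (IsPt.one_notMem hP h1 _ (by omega))
    · exact h3

/-- every function has a value at the point -/
theorem IsPt.exists_value (hP : IsPt D P) (h1 : (1 : Q) ∉ P 1) {m : ℤ} {f : Q} (hm : 0 ≤ m)
    (hf : f ∈ D.F m) : ∃ c : k, f - algebraMap k Q c ∈ P m := by
  obtain ⟨m₀, hm₀⟩ := hP.hilb
  obtain ⟨t, htF, htP, ht⟩ := hm₀ (max m₀ m) (le_max_left _ _)
  have hM : 0 ≤ max m₀ m := le_trans hm (le_max_right _ _)
  obtain ⟨c, hc⟩ := ht f (F_mono D (le_max_right _ _) hf)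
  obtain ⟨c', hc'⟩ := ht 1 (one_memF D hM)
  have hc'0 : c' ≠ 0 := by
    rintro rfl
    rw [zero_smul, sub_zero] at hc'
    exact IsPt.one_notMem hP h1 _ hM hc'
  refine ⟨c * c'⁻¹, ?_⟩
  refine IsPt.mem_of_mem hP h1 (Submodule.sub_mem _ hf (smul_one_memF D hm _)) (n := max m₀ m) ?_
  have e : f - algebraMap k Q (c * c'⁻¹) = (f - c • t) - (c * c'⁻¹) • ((1 : Q) - c' • t) := by
    rw [smul_sub, smul_smul, mul_assoc, inv_mul_cancel₀ hc'0, mul_one,
      Algebra.algebraMap_eq_smul_one]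
    ring
  rw [e]
  exact Submodule.sub_mem _ hc (Submodule.smul_mem _ _ hc')

/-- the coordinate ring of the chart -/
def chartA (D : TData k Q) : Subalgebra k Q where
  carrier := {f | ∃ m : ℕ, f ∈ D.F m}
  mul_mem' := by
    rintro f g ⟨m, hf⟩ ⟨n, hg⟩
    exact ⟨m + n, by simpa using D.mul_mem _ _ _ hf _ hg⟩
  add_mem' := by
    rintro f g ⟨m, hf⟩ ⟨n, hg⟩
    exact ⟨m + n, Submodule.add_mem _ (F_mono D (by simp) hf) (F_mono D (by simp) hg)⟩
  algebraMap_mem' := fun r => ⟨0, smul_one_memF D (by simp) r⟩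

/-- the maximal ideal of the chart -/
def chartM (hP : IsPt D P) : Ideal (chartA D) where
  carrier := {f | ∃ m : ℕ, (f : Q) ∈ P m}
  add_mem' := by
    rintro f g ⟨m, hf⟩ ⟨n, hg⟩
    exact ⟨m + n, Submodule.add_mem _ (IsGId.mono hP.toIsGId (by simp) hf)
      (IsGId.mono hP.toIsGId (by simp) hg)⟩
  zero_mem' := ⟨0, by simp⟩
  smul_mem' := by
    rintro ⟨f, m, hf⟩ ⟨g, hg'⟩ ⟨n, hg⟩
    exact ⟨m + n, by simpa using hP.mul _ _ _ hf _ hg⟩

theorem chartM_isPrime (hP : IsPt D P) (h1 : (1 : Q) ∉ P 1) : (chartM hP).IsPrime where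
  ne_top' := by
    rw [Ne, Ideal.eq_top_iff_one]
    rintro ⟨m, hm⟩
    exact IsPt.one_notMem hP h1 m (by simp) hm
  mem_or_mem' := by
    rintro ⟨f, m, hf⟩ ⟨g, n, hg⟩ ⟨l, hl⟩
    have hl' : f * g ∈ P l := hl
    have h2 : f * g ∈ P ((m : ℤ) + n) :=
      IsPt.mem_of_mem hP h1 (D.mul_mem _ _ _ hf _ hg) hl'
    rcases hP.prime _ _ _ hf _ hg h2 with h3 | h3
    · exact Or.inl ⟨m, h3⟩
    · exact Or.inr ⟨n, h3⟩

/-- upper bound for degrees, uniform on a finite dimensional space -/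
theorem exists_uniform (W : Submodule k Q) (hW : Module.Finite k W) (a b s : Q)
    (h : ∀ f ∈ W, ∃ m : ℕ, ∃ x ∈ D.F m, ∃ y ∈ D.F m, s * f = a * x + b * y) :
    ∃ L : ℕ, ∀ f ∈ W, ∃ x ∈ D.F L, ∃ y ∈ D.F L, s * f = a * x + b * y := by
  have hfg : W.FG := Module.Finite.iff_fg.1 hW
  obtain ⟨S, hS⟩ := hfg
  have h2 : ∀ f ∈ S, ∃ m : ℕ, ∃ x ∈ D.F m, ∃ y ∈ D.F m, s * f = a * x + b * y := by
    intro f hf
    exact h f (by rw [← hS]; exact Submodule.subset_span hf)
  choose! m x hx y hy e using h2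
  refine ⟨S.sup m, fun f hf => ?_⟩
  rw [← hS] at hf
  induction hf using Submodule.span_induction with
  | mem f hf =>
    have hle : (m f : ℤ) ≤ (S.sup m : ℕ) := by exact_mod_cast Finset.le_sup (f := m) hf
    exact ⟨x f, F_mono D hle (hx f hf), y f, F_mono D hle (hy f hf), e f hf⟩
  | zero => exact ⟨0, Submodule.zero_mem _, 0, Submodule.zero_mem _, by ring⟩
  | add f g _ _ hf hg =>
    obtain ⟨x1, hx1, y1, hy1, e1⟩ := hf
    obtain ⟨x2, hx2, y2, hy2, e2⟩ := hg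
    refine ⟨x1 + x2, Submodule.add_mem _ hx1 hx2, y1 + y2, Submodule.add_mem _ hy1 hy2, ?_⟩
    linear_combination e1 + e2
  | smul c f _ hf =>
    obtain ⟨x1, hx1, y1, hy1, e1⟩ := hf
    refine ⟨c • x1, Submodule.smul_mem _ _ hx1, c • y1, Submodule.smul_mem _ _ hy1, ?_⟩
    simp only [Algebra.smul_def] at *
    linear_combination (algebraMap k Q c) * e1

/-- in the chart, `P (m+1)` is generated by `P m` for large `m` -/
theorem IsPt.exists_gen (hP : IsPt D P) (h1 : (1 : Q) ∉ P 1) :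
    ∃ M : ℕ, ∀ m : ℤ, (M : ℤ) ≤ m → ∀ f ∈ P (m + 1), ∃ x ∈ P m, ∃ y ∈ P m, ∃ w ∈ P m,
      f = x + D.u * y + D.v * w := by
  obtain ⟨m₁, hm₁⟩ := D.lat.gen
  refine ⟨(max m₁ 1).toNat, fun m hm f hf => ?_⟩
  have hm' : max m₁ 1 ≤ m := le_trans (Int.self_le_toNat _) hm
  have hm1 : m₁ ≤ m := le_trans (le_max_left _ _) hm'
  have hm2 : 1 ≤ m := le_trans (le_max_right _ _) hm'
  obtain ⟨a, ha, b, hb, c, hc, e⟩ := hm₁ m hm1 f (hP.le _ hf)
  obtain ⟨α, hα⟩ := IsPt.exists_value hP h1 (by omega) ha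
  obtain ⟨β, hβ⟩ := IsPt.exists_value hP h1 (by omega) hb
  obtain ⟨γ, hγ⟩ := IsPt.exists_value hP h1 (by omega) hc
  -- the remainder
  have hr1 : algebraMap k Q α + D.u * algebraMap k Q β + D.v * algebraMap k Q γ ∈ D.F 1 := by
    refine Submodule.add_mem _ (Submodule.add_mem _ (smul_one_memF D (by norm_num) _) ?_) ?_
    · have := D.mul_mem 1 0 _ D.u_mem _ (smul_one_memF D le_rfl β)
      simpa using this
    · have := D.mul_mem 1 0 _ D.v_mem _ (smul_one_memF D le_rfl γ)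
      simpa using this
  have hub : D.u * (b - algebraMap k Q β) ∈ P (m + 1) := by
    have := hP.mul 1 m _ D.u_mem _ hβ
    rwa [add_comm] at this
  have hvc : D.v * (c - algebraMap k Q γ) ∈ P (m + 1) := by
    have := hP.mul 1 m _ D.v_mem _ hγ
    rwa [add_comm] at this
  have ha' : a - algebraMap k Q α ∈ P (m + 1) := IsGId.mono hP.toIsGId (by omega) hα
  have hr2 : algebraMap k Q α + D.u * algebraMap k Q β + D.v * algebraMap k Q γ ∈ P (m + 1) := by
    have e2 : algebraMap k Q α + D.u * algebraMap k Q β + D.v * algebraMap k Q γ =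
        f - (a - algebraMap k Q α) - D.u * (b - algebraMap k Q β)
          - D.v * (c - algebraMap k Q γ) := by
      rw [e]; simp only [smul_eq_mul]; ring
    rw [e2]
    exact Submodule.sub_mem _ (Submodule.sub_mem _ (Submodule.sub_mem _ hf ha') hub) hvc
  have hr3 : algebraMap k Q α + D.u * algebraMap k Q β + D.v * algebraMap k Q γ ∈ P m :=
    IsGId.mono hP.toIsGId hm2 (IsPt.mem_of_mem hP h1 hr1 hr2)
  refine ⟨a - algebraMap k Q α + (algebraMap k Q α + D.u * algebraMap k Q β +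
    D.v * algebraMap k Q γ), Submodule.add_mem _ hα hr3, b - algebraMap k Q β, hβ,
    c - algebraMap k Q γ, hγ, ?_⟩
  rw [e]; simp only [smul_eq_mul]; ring

/-- **the chart `X ≠ 0` is regular** -/
theorem Is7.ptRegular_chart (hz : Is7 D z) (h7 : (7 : k) ≠ 0) (hP : IsPt D P)
    (h1 : (1 : Q) ∉ P 1) : PtRegular D P := by
  have hprime := chartM_isPrime hP h1
  -- coordinates in the chart ring
  have hzA : ∀ j, z j ∈ chartA D := fun j => ⟨1, by simpa using hz.z_mem j⟩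
  let zA : Fin 5 → chartA D := fun j => ⟨z j, hzA j⟩
  have hv : ∀ j, ∃ c : k, z j - algebraMap k Q c ∈ P 1 := fun j =>
    IsPt.exists_value hP h1 (by norm_num) (hz.z_mem j)
  choose c hc using hv
  have hmem : ∀ j, zA j - algebraMap k (chartA D) (c j) ∈ chartM hP := fun j =>
    ⟨1, by simpa using hc j⟩
  have hrel : ∀ j, zA j ^ 7 * zA (j + 1) ^ 7 = 1 + zA (j + 3) ^ 7 := by
    intro j
    apply Subtype.ext
    simpa [zA] using hz.rel j
  obtain ⟨i, s, hs, hsj⟩ := local_gen (chartM hP) h7 zA c hrel hmem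
  -- `chartM` is generated by the `z_j - c_j`
  set I0 : Ideal (chartA D) := Ideal.span (Set.range fun j => zA j - algebraMap k (chartA D) (c j))
    with hI0
  have hI0le : I0 ≤ chartM hP := by
    rw [hI0, Ideal.span_le]
    rintro _ ⟨j, rfl⟩
    exact hmem j
  have hval : ∀ (m : ℕ) (f : Q) (hf : f ∈ D.F m), ∃ α : k,
      (⟨f, m, hf⟩ : chartA D) - algebraMap k (chartA D) α ∈ I0 := by
    intro m f hf
    have key : ∀ f ∈ Submodule.span k {q | ∃ b : Fin 5 → ℕ, (∀ i, Crest.R169.w i b ≤ m) ∧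
        q = ∏ i, z i ^ b i}, ∃ hf : f ∈ chartA D, ∃ α : k,
        (⟨f, hf⟩ : chartA D) - algebraMap k (chartA D) α ∈ I0 := by
      intro f hf
      induction hf using Submodule.span_induction with
      | mem f hf =>
        obtain ⟨b, -, rfl⟩ := hf
        have hmem' : ∏ i, z i ^ b i ∈ chartA D :=
          Subalgebra.prod_mem _ fun i _ => Subalgebra.pow_mem _ (hzA i) _
        refine ⟨hmem', ∏ i, c i ^ b i, ?_⟩
        have e : (⟨∏ i, z i ^ b i, hmem'⟩ : chartA D) = ∏ i, zA i ^ b i := by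
          apply Subtype.ext
          push_cast
          rfl
        rw [e, ← Ideal.Quotient.eq, map_prod, map_prod, map_prod]
        refine Finset.prod_congr rfl fun j _ => ?_
        rw [map_pow, map_pow, map_pow]
        congr 1
        rw [Ideal.Quotient.eq]
        exact Ideal.subset_span ⟨j, rfl⟩
      | zero =>
        refine ⟨Subalgebra.zero_mem _, 0, ?_⟩
        have e : (⟨0, Subalgebra.zero_mem _⟩ : chartA D) - algebraMap k (chartA D) 0 = 0 := by
          rw [map_zero, sub_zero]; rfl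
        rw [e]; exact I0.zero_mem
      | add f g _ _ hf hg =>
        obtain ⟨hf', α, hα⟩ := hf
        obtain ⟨hg', β, hβ⟩ := hg
        refine ⟨Subalgebra.add_mem _ hf' hg', α + β, ?_⟩
        have e : (⟨f + g, Subalgebra.add_mem _ hf' hg'⟩ : chartA D) -
            algebraMap k (chartA D) (α + β) = ((⟨f, hf'⟩ : chartA D) -
            algebraMap k (chartA D) α) + ((⟨g, hg'⟩ : chartA D) - algebraMap k (chartA D) β) := by
          apply Subtype.ext
          simp only [map_add, AddSubgroupClass.coe_sub, Subalgebra.coe_add,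
            Subalgebra.coe_algebraMap]
          ring
        rw [e]
        exact I0.add_mem hα hβ
      | smul r f _ hf =>
        obtain ⟨hf', α, hα⟩ := hf
        refine ⟨Subalgebra.smul_mem _ hf' r, r * α, ?_⟩
        have e : (⟨r • f, Subalgebra.smul_mem _ hf' r⟩ : chartA D) -
            algebraMap k (chartA D) (r * α) = algebraMap k (chartA D) r * ((⟨f, hf'⟩ : chartA D) -
            algebraMap k (chartA D) α) := by
          apply Subtype.ext
          simp only [map_mul, AddSubgroupClass.coe_sub, Subalgebra.coe_mul,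
            Subalgebra.coe_algebraMap, Algebra.smul_def]
          ring
        rw [e]
        exact I0.mul_mem_left _ hα
    have hf' := hf
    rw [hz.F_eq] at hf'
    obtain ⟨_, α, hα⟩ := key f hf'
    exact ⟨α, hα⟩
  have hMle : chartM hP ≤ I0 := by
    rintro ⟨f, m, hf⟩ hfm
    obtain ⟨α, hα⟩ := hval m f hf
    have h2 := (chartM hP).sub_mem hfm (hI0le hα)
    rw [sub_sub_cancel] at h2
    have h3 : α = 0 := const_mem h2
    rw [h3, map_zero, sub_zero] at hα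
    exact hα
  have hsI : ∀ x ∈ chartM hP, s * x ∈ Ideal.span {zA i - algebraMap k (chartA D) (c i),
      zA (i + 1) - algebraMap k (chartA D) (c (i + 1))} := by
    intro x hx
    have hx' := hMle hx
    clear hx
    rw [hI0] at hx'
    induction hx' using Submodule.span_induction with
    | mem x hx => obtain ⟨j, rfl⟩ := hx; exact hsj j
    | zero => simp
    | add x y _ _ hx2 hy2 =>
      rw [mul_add]
      exact Ideal.add_mem _ hx2 hy2
    | smul a x _ hx2 =>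
      rw [smul_eq_mul, mul_left_comm]
      exact Ideal.mul_mem_left _ _ hx2
  -- uniform degrees
  obtain ⟨M, hM⟩ := IsPt.exists_gen hP h1
  obtain ⟨⟨s, ms, hsF⟩, hs⟩ : ∃ s' : chartA D, s' = s := ⟨s, rfl⟩
  subst hs
  have hW : Module.Finite k (P (M : ℤ)) :=
    haveI := D.lat.fin M
    Submodule.finiteDimensional_of_le (hP.le M)
  obtain ⟨L, hL⟩ := exists_uniform (D := D) (P (M : ℤ)) hW (z i - algebraMap k Q (c i))
    (z (i + 1) - algebraMap k Q (c (i + 1))) s (by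
      intro f hf
      have hfm : (⟨f, M, hP.le _ hf⟩ : chartA D) ∈ chartM hP := ⟨M, hf⟩
      have h2 := hsI _ hfm
      rw [Ideal.mem_span_pair] at h2
      obtain ⟨⟨x, mx, hx⟩, ⟨y, my, hy⟩, e⟩ := h2
      refine ⟨mx + my, x, F_mono D (by simp) hx, y, F_mono D (by simp) hy, ?_⟩
      have e' := congrArg (fun t : chartA D => (t : Q)) e
      simp only [Subalgebra.coe_add, Subalgebra.coe_mul, AddSubgroupClass.coe_sub,
        Subalgebra.coe_algebraMap, zA] at e'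
      linear_combination -e')
  -- propagate to all degrees
  have hprop : ∀ n : ℕ, ∀ f ∈ P ((M : ℤ) + n), ∃ x ∈ D.F ((L : ℤ) + n), ∃ y ∈ D.F ((L : ℤ) + n),
      s * f = (z i - algebraMap k Q (c i)) * x + (z (i + 1) - algebraMap k Q (c (i + 1))) * y := by
    intro n
    induction n with
    | zero => intro f hf; simpa using hL f (by simpa using hf)
    | succ n ih =>
      intro f hf
      have e1 : ((M : ℤ) + ((n + 1 : ℕ) : ℤ)) = ((M : ℤ) + n) + 1 := by push_cast; ring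
      rw [e1] at hf
      obtain ⟨f0, h0, f1, hf1, f2, hf2, e⟩ := hM _ (by omega) f hf
      obtain ⟨x0, hx0, y0, hy0, e0⟩ := ih f0 h0
      obtain ⟨x1, hx1, y1, hy1, e1'⟩ := ih f1 hf1
      obtain ⟨x2, hx2, y2, hy2, e2⟩ := ih f2 hf2
      have e3 : ((L : ℤ) + ((n + 1 : ℕ) : ℤ)) = 1 + ((L : ℤ) + n) := by push_cast; ring
      rw [e3]
      refine ⟨x0 + D.u * x1 + D.v * x2, ?_, y0 + D.u * y1 + D.v * y2, ?_, ?_⟩
      · exact Submodule.add_mem _ (Submodule.add_mem _ (F_mono D (by omega) hx0)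
          (D.mul_mem _ _ _ D.u_mem _ hx1)) (D.mul_mem _ _ _ D.v_mem _ hx2)
      · exact Submodule.add_mem _ (Submodule.add_mem _ (F_mono D (by omega) hy0)
          (D.mul_mem _ _ _ D.u_mem _ hy1)) (D.mul_mem _ _ _ D.v_mem _ hy2)
      · rw [e]
        linear_combination e0 + D.u * e1' + D.v * e2
  refine ⟨1, 1, (L : ℤ) + 1 + ms, z i - algebraMap k Q (c i),
    z (i + 1) - algebraMap k Q (c (i + 1)), s, hc i, hc (i + 1), F_mono D (by omega) hsF, ?_, ?_⟩
  · intro h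
    have h2 : (⟨s, ms, hsF⟩ : chartA D) ∈ chartM hP := by
      refine ⟨L + 1 + ms, ?_⟩
      push_cast
      exact h
    exact hs h2
  · intro m f hf
    rcases lt_or_ge m 0 with hm | hm
    · have : f = 0 := by
        have h3 := hP.le _ hf
        rw [D.F_neg m hm] at h3
        simpa using h3
      subst this
      exact ⟨0, Submodule.zero_mem _, 0, Submodule.zero_mem _, by ring⟩
    · rcases le_total m (M : ℤ) with hmM | hmM
      · obtain ⟨x, hx, y, hy, e⟩ := hL f (IsGId.mono hP.toIsGId hmM hf)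
        exact ⟨x, F_mono D (by omega) hx, y, F_mono D (by omega) hy, e⟩
      · obtain ⟨n, rfl⟩ := Int.le.dest hmM
        obtain ⟨x, hx, y, hy, e⟩ := hprop n f hf
        exact ⟨x, F_mono D (by omega) hx, y, F_mono D (by omega) hy, e⟩

end Pt

end Crest.Agent.R169
end

-- ▼ part R169/Pt/Cover

/-!
# Row 169, F5: the six charts and the two symmetries (helper785)
-/

set_option autoImplicit false

namespace Crest.Agent.R169

namespace Pt

variable {k Q : Type} [Field k] [Field Q] [Algebra k Q]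

variable {D : TData k Q} {P : ℤ → Submodule k Q} {z : Fin 5 → Q}

/-- the six charts `X ≠ 0`, `z_j z_{j+1} X ≠ 0` cover -/
theorem Is7.exists_chart (hz : Is7 D z) (hP : IsPt D P) :
    (1 : Q) ∉ P 1 ∨ ∃ j : Fin 5, z j * z (j + 1) ∉ P 1 := by
  by_contra hcon
  push Not at hcon
  obtain ⟨h1, hj⟩ := hcon
  have hzj : ∀ j, z j ∈ P 1 := by
    intro j
    refine IsPt.of_pow hP (hz.z_mem j) 7 (by norm_num) ?_
    have r := hz.rel (j + 2)
    rw [fin5_add₃, fin5_add₄] at r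
    have h2 := IsGId.pow hP.toIsGId (hj (j + 2)) 7 (by norm_num)
    rw [fin5_add₃] at h2
    have h3 := IsGId.pow hP.toIsGId h1 7 (by norm_num)
    have e : z j ^ 7 = (z (j + 2) * z (j + 3)) ^ 7 - 1 ^ 7 := by
      rw [mul_pow]; linear_combination -r
    rw [e]
    exact Submodule.sub_mem _ h2 h3
  refine IsPt.not_all hP h1 ?_ ?_
  · rw [hz.hu]
    exact Submodule.add_mem _ (Submodule.add_mem _ (hzj _) (hzj _)) (hzj _)
  · rw [hz.hv]
    exact Submodule.add_mem _ (Submodule.add_mem _ (hzj _) (hzj _)) (hzj _)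

/-- constructor for graded automorphisms: one inclusion is enough -/
def GrAut.mk' (φ : ℤ → (Q ≃ₗ[k] Q)) (map_mul : ∀ i j f g, φ (i + j) (f * g) = φ i f * φ j g)
    (h : ∀ m f, f ∈ D.F m → φ m f ∈ D.F m) : GrAut D where
  φ := φ
  map_mul := map_mul
  memF m f := by
    refine ⟨fun hf => ?_, h m f⟩
    have := D.lat.fin m
    have hmap : (D.F m).map (φ m).toLinearMap = D.F m := by
      refine Submodule.eq_of_le_of_finrank_eq ?_ ?_
      · rintro _ ⟨g, hg, rfl⟩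
        exact h m g hg
      · exact LinearEquiv.finrank_map_eq (φ m) (D.F m)
    rw [← hmap] at hf
    obtain ⟨g, hg, hgf⟩ := hf
    have : g = f := (φ m).injective hgf
    rwa [← this]

/-- the rotation as a graded automorphism -/
def rotAut (hz : Is7 D z) (ρ : Q ≃ₐ[k] Q) (hρ : ∀ j, ρ (z j) = z (j + 1)) : GrAut D :=
  GrAut.mk' (D := D) (fun _ => ρ.toLinearEquiv) (fun i j f g => by simp) (by
    intro m f hf
    rw [hz.F_eq] at hf ⊢
    induction hf using Submodule.span_induction with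
    | mem f hf =>
      obtain ⟨b, hb, rfl⟩ := hf
      refine Submodule.subset_span ⟨fun i => b (i + 4), ?_, ?_⟩
      · intro i
        have := hb (i + 4)
        simp only [Crest.R169.w] at this ⊢
        have e2 : i + 4 + 1 = i + 1 + 4 := by clear this; revert i; decide
        rw [e2] at this
        exact this
      · show ρ (∏ i, z i ^ b i) = _
        rw [map_prod]
        simp only [map_pow, hρ]
        symm
        rw [← Equiv.prod_comp (Equiv.addRight (1 : Fin 5))]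
        refine Finset.prod_congr rfl fun i _ => ?_
        simp only [Equiv.coe_addRight]
        have e3 : i + 1 + 4 = i := by revert i; decide
        rw [e3]
    | zero => rw [map_zero]; exact Submodule.zero_mem _
    | add f g _ _ hf hg => rw [map_add]; exact Submodule.add_mem _ hf hg
    | smul c f _ hf => rw [map_smul]; exact Submodule.smul_mem _ _ hf)

/-- multiplication by a nonzero element as a linear equivalence -/
def mulEquiv (a : Q) (ha : a ≠ 0) : Q ≃ₗ[k] Q where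
  toFun x := a * x
  invFun x := a⁻¹ * x
  map_add' := by intro x y; ring
  map_smul' := by intro c x; simp
  left_inv := by intro x; field_simp
  right_inv := by intro x; field_simp

@[simp] theorem mulEquiv_apply (a : Q) (ha : a ≠ 0) (x : Q) :
    mulEquiv (k := k) a ha x = a * x := rfl

/-- the substitution `τ` on monomials -/
theorem tau_mono (z : Fin 5 → Q) (h2 : z 2 ≠ 0) (h3 : z 3 ≠ 0)
    (b : Fin 5 → ℕ) (M n2 n3 : ℕ) (e2 : n2 + b 0 + b 3 = M + b 4) (e3 : n3 + b 0 + b 2 = M + b 1) :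
    (z 2 * z 3) ^ M * ((-z 0 / (z 2 * z 3)) ^ b 0 * (-(z 3 * z 4)) ^ b 1 * ((z 3)⁻¹) ^ b 2 *
      ((z 2)⁻¹) ^ b 3 * (-(z 1 * z 2)) ^ b 4) =
    (-1) ^ (b 0 + b 1 + b 4) * (z 0 ^ b 0 * z 1 ^ b 4 * z 2 ^ n2 * z 3 ^ n3 * z 4 ^ b 1) := by
  have E2 : z 2 ^ n2 * z 2 ^ b 0 * z 2 ^ b 3 = z 2 ^ M * z 2 ^ b 4 := by
    rw [← pow_add, ← pow_add, ← pow_add, e2]
  have E3 : z 3 ^ n3 * z 3 ^ b 0 * z 3 ^ b 2 = z 3 ^ M * z 3 ^ b 1 := by
    rw [← pow_add, ← pow_add, ← pow_add, e3]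
  have h2' : z 2 ^ b 0 * z 2 ^ b 3 ≠ 0 := mul_ne_zero (pow_ne_zero _ h2) (pow_ne_zero _ h2)
  have h3' : z 3 ^ b 0 * z 3 ^ b 2 ≠ 0 := mul_ne_zero (pow_ne_zero _ h3) (pow_ne_zero _ h3)
  have E2' : z 2 ^ n2 = z 2 ^ M * z 2 ^ b 4 / (z 2 ^ b 0 * z 2 ^ b 3) := by
    rw [eq_div_iff h2', ← E2]; ring
  have E3' : z 3 ^ n3 = z 3 ^ M * z 3 ^ b 1 / (z 3 ^ b 0 * z 3 ^ b 2) := by
    rw [eq_div_iff h3', ← E3]; ring
  rw [E2', E3', div_pow, mul_pow, mul_pow, neg_pow (z 0), neg_pow (z 3 * z 4), neg_pow (z 1 * z 2),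
    mul_pow (z 3) (z 4), mul_pow (z 1) (z 2), inv_pow, inv_pow]
  rw [pow_add (-1 : Q) (b 0 + b 1), pow_add (-1 : Q) (b 0)]
  field_simp

/-- the transposition as a graded automorphism -/
def tauAut (hz : Is7 D z) (h2 : z 2 ≠ 0) (h3 : z 3 ≠ 0) (τ : Q ≃ₐ[k] Q)
    (t0 : τ (z 0) = -z 0 / (z 2 * z 3)) (t1 : τ (z 1) = -(z 3 * z 4)) (t2 : τ (z 2) = (z 3)⁻¹)
    (t3 : τ (z 3) = (z 2)⁻¹) (t4 : τ (z 4) = -(z 1 * z 2)) : GrAut D :=
  GrAut.mk' (D := D)
    (fun m => τ.toLinearEquiv.trans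
      (mulEquiv ((z 2 * z 3) ^ m) (zpow_ne_zero _ (mul_ne_zero h2 h3))))
    (fun i j f g => by
      simp only [LinearEquiv.trans_apply, AlgEquiv.toLinearEquiv_apply, mulEquiv_apply, map_mul]
      rw [zpow_add₀ (mul_ne_zero h2 h3)]
      ring) (by
    intro m f hf
    rcases lt_or_ge m 0 with hm | hm
    · rw [D.F_neg m hm] at hf
      rw [(Submodule.mem_bot k).1 hf, map_zero]
      exact Submodule.zero_mem _
    obtain ⟨M, rfl⟩ := Int.eq_ofNat_of_zero_le hm
    rw [hz.F_eq] at hf ⊢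
    induction hf using Submodule.span_induction with
    | mem f hf =>
      obtain ⟨b, hb, rfl⟩ := hf
      have w0 := hb 0
      have w1 := hb 1
      have w2 := hb 2
      have w3 := hb 3
      have w4 := hb 4
      simp only [Crest.R169.w, show (0 : Fin 5) + 4 = 4 from rfl, show (1 : Fin 5) + 4 = 0 from rfl,
        show (2 : Fin 5) + 4 = 1 from rfl, show (3 : Fin 5) + 4 = 2 from rfl,
        show (4 : Fin 5) + 4 = 3 from rfl, show (0 : Fin 5) + 1 = 1 from rfl,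
        show (1 : Fin 5) + 1 = 2 from rfl, show (2 : Fin 5) + 1 = 3 from rfl,
        show (3 : Fin 5) + 1 = 4 from rfl, show (4 : Fin 5) + 1 = 0 from rfl] at w0 w1 w2 w3 w4
      obtain ⟨n2, hn2⟩ : ∃ n2 : ℕ, n2 + b 0 + b 3 = M + b 4 := ⟨M + b 4 - b 0 - b 3, by omega⟩
      obtain ⟨n3, hn3⟩ : ∃ n3 : ℕ, n3 + b 0 + b 2 = M + b 1 := ⟨M + b 1 - b 0 - b 2, by omega⟩
      have e : (τ.toLinearEquiv.trans (mulEquiv ((z 2 * z 3) ^ (M : ℤ))
          (zpow_ne_zero _ (mul_ne_zero h2 h3)))) (∏ i, z i ^ b i) =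
          ((-1 : k) ^ (b 0 + b 1 + b 4)) • ∏ i, z i ^ (![b 0, b 4, n2, n3, b 1] i) := by
        rw [LinearEquiv.trans_apply, AlgEquiv.toLinearEquiv_apply, mulEquiv_apply, zpow_natCast,
          Fin.prod_univ_five, Fin.prod_univ_five, map_mul, map_mul, map_mul, map_mul, map_pow,
          map_pow, map_pow, map_pow, map_pow, t0, t1, t2, t3, t4, tau_mono z h2 h3 b M n2 n3 hn2 hn3,
          Algebra.smul_def, map_pow, map_neg, map_one]
        rfl
      rw [e]
      refine Submodule.smul_mem _ _ (Submodule.subset_span ⟨_, ?_, rfl⟩)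
      intro i
      fin_cases i
      · show ((b 1 : ℕ) : ℤ) + (b 4 : ℕ) - (b 0 : ℕ) ≤ M
        omega
      · show ((b 0 : ℕ) : ℤ) + (n2 : ℕ) - (b 4 : ℕ) ≤ M
        omega
      · show ((b 4 : ℕ) : ℤ) + (n3 : ℕ) - (n2 : ℕ) ≤ M
        omega
      · show ((n2 : ℕ) : ℤ) + (b 1 : ℕ) - (n3 : ℕ) ≤ M
        omega
      · show ((n3 : ℕ) : ℤ) + (b 0 : ℕ) - (b 1 : ℕ) ≤ M
        omega
    | zero => rw [map_zero]; exact Submodule.zero_mem _
    | add f g _ _ hf hg => rw [map_add]; exact Submodule.add_mem _ hf hg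
    | smul c f _ hf => rw [map_smul]; exact Submodule.smul_mem _ _ hf)

/-- rotation indices -/
def ridx : ℕ → Fin 5
  | 0 => 2
  | n + 1 => ridx n + 1

theorem exists_ridx (j : Fin 5) : ∃ n, j = ridx n := by
  fin_cases j
  · exact ⟨3, rfl⟩
  · exact ⟨4, rfl⟩
  · exact ⟨0, rfl⟩
  · exact ⟨1, rfl⟩
  · exact ⟨2, rfl⟩

/-- **F5, abstract form** -/
theorem Is7.allPtRegular (hz : Is7 D z) (h7 : (7 : k) ≠ 0) (h2 : z 2 ≠ 0) (h3 : z 3 ≠ 0)
    (ρ : Q ≃ₐ[k] Q) (hρ : ∀ j, ρ (z j) = z (j + 1)) (τ : Q ≃ₐ[k] Q)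
    (t0 : τ (z 0) = -z 0 / (z 2 * z 3)) (t1 : τ (z 1) = -(z 3 * z 4)) (t2 : τ (z 2) = (z 3)⁻¹)
    (t3 : τ (z 3) = (z 2)⁻¹) (t4 : τ (z 4) = -(z 1 * z 2)) : AllPtRegular D := by
  -- chart `z_2 z_3 ≠ 0`
  have base : ∀ P, IsPt D P → z 2 * z 3 ∉ P 1 → PtRegular D P := by
    intro P hP h
    set a := tauAut hz h2 h3 τ t0 t1 t2 t3 t4 with ha
    refine PtRegular.of_comap a (hz.ptRegular_chart h7 (IsPt.comap hP a) ?_)
    intro h1
    apply h
    have h1' : a.φ 1 1 ∈ P 1 := h1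
    have e : a.φ 1 1 = z 2 * z 3 := by
      show (τ.toLinearEquiv.trans (mulEquiv ((z 2 * z 3) ^ (1 : ℤ))
          (zpow_ne_zero _ (mul_ne_zero h2 h3)))) 1 = _
      rw [LinearEquiv.trans_apply, AlgEquiv.toLinearEquiv_apply, mulEquiv_apply, map_one, zpow_one,
        mul_one]
    rwa [e] at h1'
  have rot : ∀ n : ℕ, ∀ P, IsPt D P → z (ridx n) * z (ridx n + 1) ∉ P 1 →
      PtRegular D P := by
    intro n
    induction n with
    | zero => intro P hP h; exact base P hP h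
    | succ n ih =>
      intro P hP h
      set a := rotAut hz ρ hρ with ha
      refine PtRegular.of_comap a (ih _ (IsPt.comap hP a) ?_)
      intro h1
      apply h
      have h1' : a.φ 1 (z (ridx n) * z (ridx n + 1)) ∈ P 1 := h1
      have e : a.φ 1 (z (ridx n) * z (ridx n + 1)) =
          z (ridx (n + 1)) * z (ridx (n + 1) + 1) := by
        show ρ (z (ridx n) * z (ridx n + 1)) = _
        rw [map_mul, hρ, hρ]
        rfl
      rwa [e] at h1'
  intro P hP
  rcases hz.exists_chart hP with h1 | ⟨j, hj⟩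
  · exact hz.ptRegular_chart h7 hP h1
  · obtain ⟨n, rfl⟩ := exists_ridx j
    exact rot n P hP hj

end Pt

end Crest.Agent.R169
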